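import Vale.Agent.P030.H580.Pompeiu

/-! Approximation by polynomials on a compact set whose complement has no bounded component, of a
function of class `C¹` that satisfies the equation of Cauchy and Riemann almost everywhere on the
set. -/

set_option linter.all false

open MeasureTheory Set Filter Topology Metric Polynomial
open scoped Real

namespace Vale.Agent.P290Z

open Vale.Agent.P030.H580 (dbar pompeiu)

/-- The restrictions of the polynomials. -/
noncomputable def rPol (K : Set ℂ) : Subalgebra ℂ C(K, ℂ) where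
  carrier := {f | ∃ p : ℂ[X], ∀ z : K, f z = p.eval (z : ℂ)}
  mul_mem' := by
    rintro f g ⟨p, hp⟩ ⟨q, hq⟩
    exact ⟨p * q, fun z => by rw [ContinuousMap.mul_apply, hp, hq, eval_mul]⟩
  add_mem' := by
    rintro f g ⟨p, hp⟩ ⟨q, hq⟩
    exact ⟨p + q, fun z => by rw [ContinuousMap.add_apply, hp, hq, eval_add]⟩
  algebraMap_mem' c := ⟨C c, fun z => by simp⟩

/-- The Cauchy transform of a density on a compact set disjoint from `K`. -/
theorem runge_cauchy {K : Set ℂ} (hK : IsCompact K)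
    (hc : ∀ a ∉ K, ∃ S : Set ℂ, IsPreconnected S ∧ ¬ Bornology.IsBounded S ∧ a ∈ S ∧ Disjoint S K)
    {Ω : Set ℂ} (hΩ : IsCompact Ω) (hd : Disjoint Ω K) {J : ℂ → ℂ} (hJ : ContinuousOn J Ω)
    {ε : ℝ} (hε : 0 < ε) :
    ∃ p : ℂ[X], ∀ z ∈ K, ‖p.eval z - ∫ w in Ω, (w - z)⁻¹ * J w‖ < ε := by
  haveI : CompactSpace K := isCompact_iff_compactSpace.1 hK
  let A : Subalgebra ℂ C(K, ℂ) := (rPol K).topologicalClosure
  haveI hA : IsClosed (A : Set C(K, ℂ)) := Subalgebra.isClosed_topologicalClosure _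
  haveI : CompleteSpace A := hA.completeSpace_coe
  let x : A := ⟨⟨Subtype.val, continuous_subtype_val⟩,
    Subalgebra.le_topologicalClosure _ ⟨X, fun z => by simp⟩⟩
  have hx : ∀ a ∉ K, a ∈ resolventSet ℂ x := by
    intro a ha
    by_contra h
    obtain ⟨S, h1, h2, h3, h4⟩ := hc a ha
    have h5 := Subalgebra.spectrum_isBounded_connectedComponentIn A x (z := a) h
    refine h2 (h5.subset (h1.subset_connectedComponentIn h3 ?_))
    rw [ContinuousMap.spectrum_eq_range]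
    rintro b hb ⟨z, rfl⟩
    exact disjoint_left.1 h4 hb z.2
  have hr : ContinuousOn (fun w => J w • resolvent x w) Ω := hJ.smul fun w hw =>
    (spectrum.hasDerivAt_resolvent_const_left
      (hx w (disjoint_left.1 hd hw))).continuousAt.continuousWithinAt
  have hi := hr.integrableOn_compact (μ := volume) hΩ
  set G : A := ∫ w in Ω, J w • resolvent x w with hG
  obtain ⟨f, ⟨p, hp⟩, hf⟩ := Metric.mem_closure_iff.1 G.2 ε hε
  refine ⟨p, fun z hz => ?_⟩
  let L : A →L[ℂ] ℂ := (ContinuousMap.evalCLM ℂ (⟨z, hz⟩ : K)).comp A.toSubmodule.subtypeL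
  have h1 : (G : C(K, ℂ)) ⟨z, hz⟩ = ∫ w in Ω, (w - z)⁻¹ * J w := by
    change L G = _
    rw [hG, ← L.integral_comp_comm hi]
    refine setIntegral_congr_fun hΩ.measurableSet fun w hw => ?_
    have h2 : (algebraMap ℂ A w - x) * resolvent x w = 1 :=
      Ring.mul_inverse_cancel _ (hx w (disjoint_left.1 hd hw))
    have h3 : (w - z) * L (resolvent x w) = 1 :=
      congrArg (fun g : A => (g : C(K, ℂ)) ⟨z, hz⟩) h2
    change L (J w • resolvent x w) = (w - z)⁻¹ * J w
    rw [map_smul, smul_eq_mul, eq_inv_of_mul_eq_one_right h3, mul_comm]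
  rw [← h1, ← hp ⟨z, hz⟩, ← dist_eq_norm, dist_comm]
  exact (ContinuousMap.dist_apply_le_dist _).trans_lt hf

theorem dbar_eq_zero {φ : ℂ → ℂ} {z : ℂ} (h : DifferentiableAt ℂ φ z) : dbar φ z = 0 := by
  unfold dbar
  rw [h.fderiv_restrictScalars ℝ]
  have : fderiv ℂ φ z Complex.I = Complex.I • fderiv ℂ φ z 1 := by
    rw [← map_smul, smul_eq_mul, mul_one]
  simp only [ContinuousLinearMap.coe_restrictScalars', this, smul_eq_mul]
  rw [← mul_assoc, Complex.I_mul_I]
  ring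

theorem continuous_dbar {φ : ℂ → ℂ} (hφ : ContDiff ℝ 1 φ) : Continuous (dbar φ) := by
  have h := hφ.continuous_fderiv one_ne_zero
  unfold dbar
  fun_prop

theorem runge_supp {K : Set ℂ} (hK : IsCompact K)
    (hc : ∀ a ∉ K, ∃ S : Set ℂ, IsPreconnected S ∧ ¬ Bornology.IsBounded S ∧ a ∈ S ∧ Disjoint S K)
    {φ : ℂ → ℂ} (hφ : ContDiff ℝ 1 φ) (hs : HasCompactSupport φ)
    (hd : ∀ᵐ z, z ∈ K → dbar φ z = 0) {ε : ℝ} (hε : 0 < ε) :
    ∃ p : ℂ[X], ∀ z ∈ K, ‖p.eval z - φ z‖ < ε := by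
  let J : ℂ → ℂ := fun w => -(π : ℂ)⁻¹ * dbar φ w
  have hJ : Continuous J := continuous_const.mul (continuous_dbar hφ)
  have hs' : HasCompactSupport (dbar φ) := by
    refine (hs.fderiv ℝ).mono fun z hz h0 => hz ?_
    unfold dbar
    rw [h0]
    simp
  have hsJ : HasCompactSupport J := hs'.mul_left
  obtain ⟨M, hM⟩ := hJ.bounded_above_of_compact_support hsJ
  have hM0 : 0 ≤ M := (norm_nonneg _).trans (hM 0)
  obtain ⟨R, hR⟩ := (hK.union hsJ.isCompact).isBounded.subset_ball (0 : ℂ)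
  let g : ℂ → ℝ := (ball (0 : ℂ) (2 * R)).indicator fun u => ‖u‖⁻¹
  have hg : Integrable g := by
    rw [integrable_indicator_iff measurableSet_ball]
    refine integrableOn_ball_of_norm_le_rpow (C := 1) (α := 1) (by simp) (by simp)
      (Eventually.of_forall fun u => ?_) (measurable_norm.inv).aestronglyMeasurable
    simp [Real.rpow_neg_one]
  have hb : ∀ z ∈ K, ∀ w, ‖(w - z)⁻¹ * J w‖ ≤ M * g (w - z) := by
    intro z hz w
    by_cases h : J w = 0
    · rw [h, mul_zero, norm_zero]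
      exact mul_nonneg hM0 (indicator_nonneg (fun u _ => by positivity) _)
    have h1 := mem_ball_zero_iff.1 (hR (Or.inl hz))
    have h2 := mem_ball_zero_iff.1 (hR (Or.inr (subset_tsupport _ h)))
    have h3 : w - z ∈ ball (0 : ℂ) (2 * R) :=
      mem_ball_zero_iff.2 ((norm_sub_le _ _).trans_lt (by linarith))
    simp only [g]
    rw [indicator_of_mem h3, norm_mul, norm_inv, mul_comm]
    exact mul_le_mul_of_nonneg_right (hM w) (by positivity)
  obtain ⟨η, hη, hη'⟩ : ∃ η > 0, ∀ s : Set ℂ, volume s < η → M * ∫ u in s, g u < ε / 2 := by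
    have h1 := (hg.tendsto_setIntegral_nhds_zero (l := comap volume (𝓝 0)) (s := id)
      tendsto_comap).const_mul M
    rw [mul_zero] at h1
    have h2 := h1.eventually (gt_mem_nhds (half_pos hε))
    rw [eventually_comap] at h2
    obtain ⟨η, hη, h3⟩ := (nhds_bot_basis (α := ENNReal)).eventually_iff.1 h2
    exact ⟨η, hη, fun s hs => h3 hs s rfl⟩
  have hU : MeasurableSet {w | J w ≠ 0} := (isOpen_ne_fun hJ continuous_const).measurableSet
  obtain ⟨δ, hδ, hδ'⟩ : ∃ δ > 0, volume (cthickening δ K ∩ {w | J w ≠ 0}) < η := by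
    have h1 := tendsto_measure_cthickening_of_isCompact
      (μ := (volume : Measure ℂ).restrict {w | J w ≠ 0}) hK
    have h2 : (volume : Measure ℂ).restrict {w | J w ≠ 0} K = 0 := by
      rw [Measure.restrict_apply' hU]
      refine measure_mono_null (t := {w | ¬ (w ∈ K → dbar φ w = 0)}) (fun w hw h => hw.2 ?_)
        (ae_iff.1 hd)
      simp only [J, h hw.1, mul_zero]
    rw [h2] at h1
    obtain ⟨δ, h3, h4⟩ := (((h1.eventually (gt_mem_nhds hη)).filter_mono nhdsWithin_le_nhds).and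
      (self_mem_nhdsWithin (s := Ioi (0 : ℝ)))).exists
    exact ⟨δ, h4, by rwa [Measure.restrict_apply' hU] at h3⟩
  let Ω : Set ℂ := closedBall 0 R \ thickening δ K
  have hΩ : IsCompact Ω := (isCompact_closedBall _ _).diff isOpen_thickening
  obtain ⟨p, hp⟩ := runge_cauchy hK hc hΩ
    (disjoint_left.2 fun w hw h => hw.2 (self_subset_thickening hδ _ h)) hJ.continuousOn
    (half_pos hε)
  refine ⟨p, fun z hz => ?_⟩
  have h1 : φ z = ∫ w, (w - z)⁻¹ * J w := by
    have := pompeiu φ hφ 0 hs.is_zero_at_infty hs' z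
    rwa [zero_add] at this
  have h2 : Integrable fun w => M * g (w - z) := (hg.comp_sub_right z).const_mul M
  have h3 : Integrable fun w => (w - z)⁻¹ * J w :=
    h2.mono' (((measurable_id.sub_const z).inv.mul hJ.measurable).aestronglyMeasurable)
      (Eventually.of_forall (hb z hz))
  let N : Set ℂ := Ωᶜ ∩ {w | J w ≠ 0}
  have hN : MeasurableSet N := hΩ.measurableSet.compl.inter hU
  have h4 : ∫ w in Ωᶜ, (w - z)⁻¹ * J w = ∫ w in N, (w - z)⁻¹ * J w :=
    setIntegral_eq_of_subset_of_forall_sdiff_eq_zero hΩ.measurableSet.compl inter_subset_left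
      fun w hw => by
        have : J w = 0 := by
          by_contra h
          exact hw.2 ⟨hw.1, h⟩
        rw [this, mul_zero]
  have h5 : volume N < η := by
    refine (measure_mono fun w hw => ?_).trans_lt hδ'
    refine ⟨thickening_subset_cthickening _ _ ?_, hw.2⟩
    by_contra h
    exact hw.1 ⟨ball_subset_closedBall (hR (Or.inr (subset_tsupport _ hw.2))), h⟩
  have h6 : ‖∫ w in N, (w - z)⁻¹ * J w‖ < ε / 2 := by
    refine (norm_integral_le_of_norm_le h2.integrableOn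
      (Eventually.of_forall (hb z hz))).trans_lt ?_
    rw [integral_const_mul, ← (measurePreserving_add_right volume z).setIntegral_preimage_emb
      (measurableEmbedding_addRight z)]
    simp only [add_sub_cancel_right]
    exact hη' _ (by rwa [measure_preimage_add_right])
  have h7 := hp z hz
  rw [h1, ← integral_add_compl hΩ.measurableSet h3, h4, ← sub_sub]
  exact (norm_sub_le _ _).trans_lt (by linarith)

/-- Approximation by polynomials. -/
theorem runge_dbar {K : Set ℂ} (hK : IsCompact K)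
    (hc : ∀ a ∉ K, ∃ S : Set ℂ, IsPreconnected S ∧ ¬ Bornology.IsBounded S ∧ a ∈ S ∧ Disjoint S K)
    {φ : ℂ → ℂ} (hφ : ContDiff ℝ 1 φ) (hd : ∀ᵐ z, z ∈ K → dbar φ z = 0)
    {ε : ℝ} (hε : 0 < ε) : ∃ p : ℂ[X], ∀ z ∈ K, ‖p.eval z - φ z‖ < ε := by
  obtain ⟨R, hR0, hR⟩ := hK.isBounded.subset_ball_lt 0 (0 : ℂ)
  let χ : ContDiffBump (0 : ℂ) := ⟨R, R + 1, hR0, by linarith⟩
  let ψ : ℂ → ℂ := fun z => (χ z : ℂ) * φ z
  have h1 : ∀ z ∈ K, ψ =ᶠ[𝓝 z] φ := fun z hz => by
    filter_upwards [χ.eventuallyEq_one_of_mem_ball (hR hz)] with w hw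
    simp only [ψ, hw, Pi.one_apply, Complex.ofReal_one, one_mul]
  have h2 : ContDiff ℝ 1 ψ := (Complex.ofRealCLM.contDiff.comp χ.contDiff).mul hφ
  have h3 : HasCompactSupport ψ :=
    (χ.hasCompactSupport.comp_left (g := fun r : ℝ => (r : ℂ)) Complex.ofReal_zero).mul_right
  obtain ⟨p, hp⟩ := runge_supp hK hc h2 h3 (hd.mono fun z hz h => by
    have := hz h
    unfold dbar at *
    rwa [(h1 z h).fderiv_eq]) hε
  exact ⟨p, fun z hz => (h1 z hz).eq_of_nhds ▸ hp z hz⟩

theorem runge_poly {K : Set ℂ} (hK : IsCompact K)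
    (hc : ∀ a ∉ K, ∃ S : Set ℂ, IsPreconnected S ∧ ¬ Bornology.IsBounded S ∧ a ∈ S ∧ Disjoint S K)
    {φ : ℂ → ℂ} (hφ : ContDiff ℝ 1 φ) (hd : ∀ᵐ z, z ∈ K → DifferentiableAt ℂ φ z)
    {ε : ℝ} (hε : 0 < ε) : ∃ p : ℂ[X], ∀ z ∈ K, ‖p.eval z - φ z‖ < ε :=
  runge_dbar hK hc hφ (hd.mono fun _ hz h => dbar_eq_zero (hz h)) hε

/-- Approximation by entire functions. -/
theorem runge_lite {K : Set ℂ} (hK : IsCompact K)
    (hc : ∀ a ∉ K, ∃ S : Set ℂ, IsPreconnected S ∧ ¬ Bornology.IsBounded S ∧ a ∈ S ∧ Disjoint S K)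
    {φ : ℂ → ℂ} (hφ : ContDiff ℝ 1 φ) (hd : ∀ᵐ z, z ∈ K → DifferentiableAt ℂ φ z)
    {ε : ℝ} (hε : 0 < ε) : ∃ F : ℂ → ℂ, Differentiable ℂ F ∧ ∀ z ∈ K, ‖F z - φ z‖ < ε := by
  obtain ⟨p, hp⟩ := runge_poly hK hc hφ hd hε
  exact ⟨fun z => p.eval z, p.differentiable, hp⟩

end Vale.Agent.P290Z
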